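import Mathlib
import Vale.Agent.P092.H655.Stmt

/-!
P092 (helper859): hypothesis and conclusion of the final statement of Theorem N.
-/

namespace Vale.Agent.P092.L.H859

open Vale.Agent.P092.H160 Vale.Agent.P092.H160.St Vale.Agent.P092.H103.St Vale.Agent.P092.H655

/-- `m` is a finitely additive probability on the subsets of `Λ`, invariant under right
multiplication by the elements of `K`. -/
def IsMean {Λ : Type} [Group Λ] (K : Subgroup Λ) (m : Set Λ → ℝ) : Prop :=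
  (∀ S, 0 ≤ m S) ∧ m Set.univ = 1 ∧ (∀ S T, Disjoint S T → m (S ∪ T) = m S + m T) ∧
    ∀ S, ∀ v ∈ K, m {x | x * v ∈ S} = m S

/-- `Λ` has two commuting nonamenable subgroups, one of which has an infinite abelian subgroup. -/
def CommPair (Λ : Type) [Group Λ] : Prop :=
  ∃ K₀ K₁ A : Subgroup Λ, (¬ ∃ m, IsMean K₀ m) ∧ (¬ ∃ m, IsMean K₁ m) ∧
    (∀ v ∈ K₀, ∀ w ∈ K₁, v * w = w * v) ∧ A ≤ K₁ ∧ Infinite A ∧ ∀ a ∈ A, ∀ b ∈ A, a * b = b * a

/-- `L(Λ)` has no trace preserving embedding in a corner of a matrix algebra over `L(Γ)` and, if one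
of the groups has infinite nontrivial conjugacy classes, is not isomorphic to such a corner. -/
def NoEmb (Λ Γ : Type) [Group Λ] [Group Γ] : Prop :=
  ∀ k : ℕ, (∀ U : Λ → MOp k Γ, ¬ TraceRep Λ Γ k U) ∧
    (((∀ g : Γ, g ≠ 1 → Set.Infinite {y : Γ | ∃ h, y = h * g * h⁻¹}) ∨
      (∀ g : Λ, g ≠ 1 → Set.Infinite {y : Λ | ∃ h, y = h * g * h⁻¹})) →
      ∀ p : MOp k Γ, IsProj p → IsEmpty (CornerIso Λ Γ k p))

end Vale.Agent.P092.L.H859
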