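import Vale.Agent.P092.L.H859.WallEmb
import Vale.Agent.P092.H714.NMean
import Vale.Agent.P092.L.H553.Final
import Vale.Agent.P092.H19.ShB
import Vale.Agent.P092.H377.Com
import Vale.Agent.P092.H377.PSL
import Vale.Agent.P092.L.H859.Stmt

/-!
P092 (helper859): Theorem N for all amplifications and all groups which contain a discrete
subgroup of `SL_3(ℝ)` with finite index.
-/

set_option linter.all false

open scoped InnerProductSpace
open Filter Topology ContinuousLinearMap MeasureTheory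

namespace Vale.Agent.P092.L.H859

open Vale.Agent.P092.H160 Vale.Agent.P092.H200 Vale.Agent.P092.L.H553
open Vale.Agent.P092.H432 (ARep mp ep exists_efam)
open Vale.Agent.P092.H859 (Pair pair_of_split)
open Vale.Agent.P092.H655 (SLR TraceRep)
open Vale.Agent.P092.H377 (arep_finiteIndex)

theorem no_arep_disc (Γ₀ : Subgroup (SLR 3)) [DiscreteTopology Γ₀] {Λ ι : Type} [Group Λ]
    [Fintype ι] (hΛ : Pair Λ) {t : ℝ} {R : Λ → (Ell2 (Γ₀ × ι) →L[ℂ] Ell2 (Γ₀ × ι))} :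
    ¬ ARep t R := by
  haveI : Emb Γ₀ := embDisc Γ₀
  exact H714.no_arep_of_pair wallFun_emb hΛ

theorem no_arep_fi {Γ₀ : Subgroup (SLR 3)} [DiscreteTopology Γ₀] {Γ Λ ι : Type} [Group Γ]
    [Group Λ] [Fintype ι] (i : Γ₀ →* Γ) (hi : Function.Injective i) (hfi : i.range.FiniteIndex)
    (hΛ : Pair Λ) {t : ℝ} {R : Λ → (Ell2 (Γ × ι) →L[ℂ] Ell2 (Γ × ι))} : ¬ ARep t R := by
  intro hR
  obtain ⟨κ, _, t₁, R₁, h2⟩ := arep_finiteIndex i hR hi
  exact no_arep_disc Γ₀ hΛ h2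

theorem isMean_iff {Λ : Type} [Group Λ] {K : Subgroup Λ} {m : Set Λ → ℝ} :
    IsMean K m ↔ IsInvMean K m :=
  ⟨fun h => ⟨h.1, h.2.1, h.2.2.1, h.2.2.2⟩, fun h => ⟨h.1, h.2, h.3, h.4⟩⟩

theorem commPair_iff {Λ : Type} [Group Λ] : CommPair Λ ↔ Pair Λ := by
  simp only [CommPair, isMean_iff, Pair, NoMean, Vertex]
  constructor
  · rintro ⟨K₀, K₁, A, h0, h1, hc, hA, hi, ha⟩
    exact ⟨K₀, K₁, A, h0, h1, hc, ⟨hi, ha⟩, hA⟩
  · rintro ⟨K₀, K₁, A, h0, h1, hc, ⟨hi, ha⟩, hA⟩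
    exact ⟨K₀, K₁, A, h0, h1, hc, hA, hi, ha⟩

theorem commPair_of_split {Λ : Type} [Group Λ] (h : Split Λ) : CommPair Λ :=
  commPair_iff.mpr (pair_of_split h)

theorem noEmb_of_pair {Γ₀ : Subgroup (SLR 3)} (hd : DiscreteTopology Γ₀) {Γ Λ : Type} [Group Γ]
    [Group Λ] (i : Γ₀ →* Γ) (hi : Function.Injective i) (hfi : i.range.FiniteIndex)
    (hΛ' : CommPair Λ) : NoEmb Λ Γ := by
  have hΛ := commPair_iff.mp hΛ'
  refine fun k => ⟨fun U e => ?_, fun hI p hp => ⟨fun c => ?_⟩⟩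
  · obtain ⟨t, R, hR⟩ := H19.arep_of_traceRep e
    exact no_arep_fi i hi hfi hΛ hR
  · obtain ⟨t, R, hR⟩ := H19.aframe_of_iso hp c hI
    exact no_arep_fi i hi hfi hΛ hR.toARep

open Vale.Agent.P092.H655 (IsLat) in
theorem icc_of_isLat {Γ : Subgroup (SLR 3)} (h : IsLat 3 Γ) (g : Γ) (hg : g ≠ 1) :
    Set.Infinite {y : Γ | ∃ h, y = h * g * h⁻¹} := by
  letI : MeasurableSpace (SLR 3 ⧸ Γ) := borel _
  haveI : BorelSpace (SLR 3 ⧸ Γ) := ⟨rfl⟩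
  obtain ⟨ν, h0, h1, h2⟩ := h.covol
  haveI : IsFiniteMeasure ν := ⟨h1⟩
  haveI : SMulInvariantMeasure (SLR 3) (SLR 3 ⧸ Γ) ν := ⟨fun c s hs => h2 c s hs⟩
  exact icc_lattice Γ ν h0 g hg

end Vale.Agent.P092.L.H859
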