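import Vale.Agent.P092.H175.NLeft
import Vale.Agent.P092.L.H175.Left
import Vale.Agent.P092.L.H859.FN

/-!
P092, stage (L), block N1 (helper859, after helper175): asymptotic left equivariance of `fN`.
-/

namespace Vale.Agent.P092.L.H859

open Matrix Vale.Agent.P092.L.H553
open Vale.Agent.P092.H553 (hs)
open Vale.Agent.P092.H175 (left_matN alg_finalN hs_mul_le M3)
open Vale.Agent.P092.L.H175 (rm_mul_inv rA_pos rB_pos exp_x1)

variable {G3 : Type} [Group G3] [Emb G3]

/-- **(N1)(i)** The asymptotic left equivariance. -/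
theorem left_estN {κ θ e t : ℝ} {s g b : G3} (h1 : rA s ≤ κ) (h2 : rB s ≤ κ)
    (he : e ≤ 1 / 2) (h23 : 6 / G23 g ≤ e) (ht : Real.exp (-t / 2) ≤ θ) (hθ : θ ≤ 1) :
    |rB (s * g) / rB g *
        fN (t + Real.log ((rB (s * g) / rB g) ^ 2 / (rA (s * g) / rA g))) (s * g) (s * b) -
      fN t g b| ≤ (10 * κ ^ 2 * θ + 8 * κ ^ 2 * e) * fN t g b := by
  have hA := rA_pos g
  have hB := rB_pos g
  have hA' := rA_pos (s * g)
  have hB' := rB_pos (s * g)
  have hAs := rA_pos s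
  have hk : 1 ≤ κ := by
    have h1' : hs (1 : M3) ≤ rA s * rB s := by
      rw [← rm_mul_inv s]; exact hs_mul_le _ _
    have h3 : hs (1 : M3) = 3 := by simp [hs, Matrix.one_apply]
    rw [h3] at h1'
    by_contra hlt
    push Not at hlt
    have h4 : rA s * rB s ≤ κ * κ := mul_le_mul h1 h2 (rB_pos s).le (by linarith only [h1, hAs])
    nlinarith only [h1', h4, hlt, h1, hAs]
  set p := rB (s * g) / rB g with hp
  set q := rA (s * g) / rA g with hq
  have hp0 : 0 < p := by positivity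
  have hq0 : 0 < q := by positivity
  have main := left_matN (G := rm g) (Gi := rm g⁻¹) (S := rm s) (Si := rm s⁻¹) (Bm := rm b)
    (rm_mul_inv g) (rm_det g) (rm_mul_inv s) (rm_det s) (k := κ) (θ := θ) (e := e)
    (a := Real.exp (-t / 2)) hk h1 h2 he
    (by
      have : 6 * hs (rm g) / hs (rm g⁻¹) ^ 2 = 6 / G23 g := by
        unfold G23 rA rB
        have h1 : hs (rm g) ≠ 0 := hA.ne'
        have h2 : hs (rm g⁻¹) ≠ 0 := hB.ne'
        field_simp
      rw [this]; exact h23)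
    (Real.exp_pos _) ht hθ (p := p) (q := q)
    (by rw [hp]; unfold rB; rw [_root_.mul_inv_rev, rm_mul]) (by rw [hq]; unfold rA; rw [rm_mul])
  have ea : Real.exp (-t / 2) ^ 2 = Real.exp (-t) := by
    rw [← Real.exp_nat_mul]; congr 1; push_cast; ring
  rw [ea] at main
  have hff : hs (rm g⁻¹ * rm b) / hs (rm g⁻¹) +
      Real.exp (-t) * (hs (rm b) - hs ((rm g)ᵀ * rm b) / hs (rm g)) = fN t g b := by
    unfold fN rA rB; rw [rm_mul]
  rw [hff] at main
  refine le_trans (le_of_eq ?_) main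
  congr 1
  have x1 : Real.exp (-(t + Real.log (p ^ 2 / q))) = Real.exp (-t) * (q / p ^ 2) :=
    exp_x1 hp0 hq0
  have x3 : (s * g)⁻¹ * (s * b) = g⁻¹ * b := by group
  have x4 : hs ((rm (s * g))ᵀ * rm (s * b)) = hs ((rm g)ᵀ * ((rm s)ᵀ * rm s) * rm b) := by
    rw [rm_mul, rm_mul, transpose_mul]; simp only [Matrix.mul_assoc]
  rw [← hff]
  unfold fN
  rw [x1, x3, x4]
  have y1 : rA (g⁻¹ * b) = hs (rm g⁻¹ * rm b) := by unfold rA; rw [rm_mul]
  have y2 : rA (s * b) = hs (rm s * rm b) := by unfold rA; rw [rm_mul]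
  rw [y1, y2]
  have z1 : rB (s * g) = p * hs (rm g⁻¹) := (div_mul_cancel₀ _ hB.ne').symm
  have z2 : rA (s * g) = q * hs (rm g) := (div_mul_cancel₀ _ hA.ne').symm
  rw [z1, z2]
  have w1 : hs (rm g) ≠ 0 := hA.ne'
  have w2 : hs (rm g⁻¹) ≠ 0 := hB.ne'
  exact alg_finalN w1 w2 hp0.ne' hq0.ne'

end Vale.Agent.P092.L.H859
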