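import Vale.Agent.P092.L.H859.Wall
import Vale.Agent.P092.L.H859.NLeft
import Vale.Agent.P092.L.H553.Asm
import Vale.Agent.P092.H714.NGood

/-!
P092, stage (L), block N1 (helper859): the functions at the wall, for a group acting through a
homomorphism to `SL_3(ℝ)` with finite balls, in the abstract form of helper714.
-/

namespace Vale.Agent.P092.L.H859

open Vale.Agent.P092.L.H553 Vale.Agent.P092.L.H132
open Vale.Agent.P092.H553 (hs)

variable {G3 : Type} [Group G3] [Emb G3]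

theorem leftN : LeftN G3 := by
  refine ⟨10, by norm_num, ?_⟩
  intro κ θ e t s g b h1 h2 he h23 ht hθ
  have hκ : 1 ≤ κ := (one_le_rA s).trans h1
  have hθ0 : 0 ≤ θ := (Real.exp_pos _).le.trans ht
  have he0 : 0 ≤ e := le_trans (div_nonneg (by norm_num) (by linarith [G23_ge g])) h23
  have main := left_estN (t := t) (g := g) (b := b) h1 h2 he h23 ht hθ
  refine main.trans (mul_le_mul_of_nonneg_right ?_ (fN_pos t g b).le)
  have h3 : κ ^ 2 ≤ κ ^ 3 := pow_le_pow_right₀ hκ (by norm_num)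
  have h4 : κ ^ 2 * (θ + e) ≤ κ ^ 3 * (θ + e) := mul_le_mul_of_nonneg_right h3 (by linarith)
  have h5 : 0 ≤ κ ^ 2 * e := by positivity
  linarith

/-- Functions which are Lipschitz in `NS` are uniformly continuous in `NS`. -/
theorem uc_of_lip {f : G3 → ℝ} {L : ℝ}
    (h : ∀ g g' : G3, |f g - f g'| ≤ L * Real.sqrt (hs (NS g - NS g'))) : UC f := by
  intro δ hδ
  obtain ⟨L', hL', hLL'⟩ : ∃ L' : ℝ, 0 < L' ∧ L ≤ L' := ⟨max L 1, by positivity, le_max_left _ _⟩
  refine ⟨δ / L', by positivity, fun g g' hg => ?_⟩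
  have h0 := Real.sqrt_nonneg (hs (NS g - NS g'))
  have h1 : δ ≤ L' * Real.sqrt (hs (NS g - NS g')) :=
    hg.trans ((h g g').trans (mul_le_mul_of_nonneg_right hLL' h0))
  have h2 : δ / L' ≤ Real.sqrt (hs (NS g - NS g')) := by
    rw [div_le_iff₀ hL']; linarith
  have h3 : (δ / L') ^ 2 ≤ Real.sqrt (hs (NS g - NS g')) ^ 2 :=
    pow_le_pow_left₀ (by positivity) h2 2
  rwa [Real.sq_sqrt (hs_nonneg _)] at h3

/-- Block N1 over `Emb`. -/
theorem wallFun_emb :
    H714.WallFun (Γ := G3) Vale.Agent.P092.L.H553.G12 Vale.Agent.P092.L.H553.G23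
      {f : G3 → ℝ | Adm f} := by
  classical
  intro R1
  obtain ⟨c, hc, hw⟩ := wall_fun_of (G3 := G3) leftN R1
  refine ⟨c, hc, fun S ε hε Rn => ?_⟩
  obtain ⟨B, α, β, M, L, h1, h2, h3, h4, h5, h6, h7, h8, h9⟩ := hw S ε hε Rn
  refine ⟨B, α, β, M, h1, h2, h3, fun s hs h hh hM => ?_, h5, h6, h7, fun b => ⟨fun g => ?_, ?_⟩,
    h9⟩
  · exact h4 s hs h hh hM
  · refine ⟨h5 b g, ?_⟩
    by_cases hb : b ∈ B
    · have e1 : β b g ^ 2 ≤ 1 :=
        (Finset.single_le_sum (f := fun b => β b g ^ 2) (fun _ _ => sq_nonneg _) hb).trans (h7 g)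
      have := h5 b g
      nlinarith
    · rw [h6 b hb g]; exact zero_le_one
  · exact uc_of_lip (L := L) (h8 b)

end Vale.Agent.P092.L.H859
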