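import Mathlib
import Vale.Agent.P092.H515.RkDef

/-!
P092 (helper859): the hypothesis on the sources of the final statement of the type theorem.
-/

namespace Vale.Agent.P092.L.H859.St

/-- `m` is a finitely additive probability on the subsets of `Λ`, invariant under right
multiplication by the elements of `K`. -/
def IsMean {Λ : Type} [Group Λ] (K : Subgroup Λ) (m : Set Λ → ℝ) : Prop :=
  (∀ S, 0 ≤ m S) ∧ m Set.univ = 1 ∧ (∀ S T, Disjoint S T → m (S ∪ T) = m S + m T) ∧
    ∀ S, ∀ v ∈ K, m {x | x * v ∈ S} = m S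

/-- `Λ` has two commuting nonamenable subgroups, one of which has an infinite abelian subgroup. -/
def CommPair (Λ : Type) [Group Λ] : Prop :=
  ∃ K₀ K₁ A : Subgroup Λ, (¬ ∃ m, IsMean K₀ m) ∧ (¬ ∃ m, IsMean K₁ m) ∧
    (∀ v ∈ K₀, ∀ w ∈ K₁, v * w = w * v) ∧ A ≤ K₁ ∧ Infinite A ∧ ∀ a ∈ A, ∀ b ∈ A, a * b = b * a

/-- The topological group `E` has a discrete subgroup with such a pair. -/
def HasPair (E : Type) [Group E] [TopologicalSpace E] : Prop :=
  ∃ D : Subgroup E, DiscreteTopology D ∧ CommPair D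

end Vale.Agent.P092.L.H859.St
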