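import Vale.Agent.P092.L.H859.Pair
import Vale.Agent.P092.L.H859.StmtE

/-!
P092 (helper859): instances of the type theorem: products.
-/

set_option linter.all false

namespace Vale.Agent.P092.L.H859

open Vale.Agent.P092.H200
open Vale.Agent.P092.H859 (Pair)

/-- `E` has a discrete free subgroup of rank two. -/
def DiscFree (E : Type) [Group E] [TopologicalSpace E] : Prop :=
  ∃ φ : FreeGroup (Fin 2) →* E, Function.Injective φ ∧ DiscreteTopology φ.range

theorem disc_prod {E F : Type} [Group E] [TopologicalSpace E] [Group F] [TopologicalSpace F]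
    {A : Subgroup E} {B : Subgroup F} (hA : DiscreteTopology A) (hB : DiscreteTopology B) :
    DiscreteTopology (A.prod B) := by
  refine DiscreteTopology.of_continuous_injective
    (f := fun x : A.prod B => ((⟨x.1.1, x.2.1⟩, ⟨x.1.2, x.2.2⟩) : A × B)) ?_ ?_
  · exact ((continuous_fst.comp continuous_subtype_val).subtype_mk _).prodMk
      ((continuous_snd.comp continuous_subtype_val).subtype_mk _)
  · intro x y h
    simp only [Prod.mk.injEq, Subtype.mk.injEq] at h
    exact Subtype.ext (Prod.ext h.1 h.2)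

theorem commPair_F2F2 {Λ : Type} [Group Λ] (φ : FreeGroup (Fin 2) × FreeGroup (Fin 2) →* Λ)
    (hφ : Function.Injective φ) : St.CommPair Λ :=
  (split_families (fun Λ _ => L.H859.CommPair Λ) (fun Λ _ h => commPair_of_split h)).2.2.2.2 Λ φ hφ

/-- Products of two groups with discrete free subgroups. -/
theorem hasPair_prod {E F : Type} [Group E] [TopologicalSpace E] [Group F] [TopologicalSpace F]
    (hE : DiscFree E) (hF : DiscFree F) : St.HasPair (E × F) := by
  obtain ⟨φ, hφ, dφ⟩ := hE
  obtain ⟨ψ, hψ, dψ⟩ := hF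
  refine ⟨φ.range.prod ψ.range, disc_prod dφ dψ, ?_⟩
  refine commPair_F2F2 ((φ.prodMap ψ).codRestrict _ fun x => ⟨⟨_, rfl⟩, ⟨_, rfl⟩⟩) ?_
  rintro ⟨a, b⟩ ⟨c, d⟩ h
  have h1 := congrArg (fun y : φ.range.prod ψ.range => y.1) h
  have h2 : (φ a, ψ b) = (φ c, ψ d) := h1
  rw [Prod.mk.injEq] at h2
  exact Prod.ext (hφ h2.1) (hψ h2.2)

theorem commPair_map {Λ Λ' : Type} [Group Λ] [Group Λ'] (f : Λ →* Λ')
    (hf : Function.Injective f) (h : St.CommPair Λ) : St.CommPair Λ' := by
  have h' : Pair Λ := L.H859.commPair_iff.mp h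
  refine L.H859.commPair_iff.mpr ?_
  obtain ⟨K₀, K₁, A, h0, h1, hc, ⟨hi, ha⟩, hA⟩ := h'
  refine ⟨K₀.map f, K₁.map f, A.map f, h0.map f hf, h1.map f hf, ?_, ⟨?_, ?_⟩,
    Subgroup.map_mono hA⟩
  · rintro _ ⟨v, hv, rfl⟩ _ ⟨w, hw, rfl⟩
    rw [← map_mul, ← map_mul, hc v hv w hw]
  · exact (A.equivMapOfInjective f hf).toEquiv.infinite_iff.mp hi
  · rintro _ ⟨v, hv, rfl⟩ _ ⟨w, hw, rfl⟩
    rw [← map_mul, ← map_mul, ha v hv w hw]

theorem disc_map {E F : Type} [Group E] [TopologicalSpace E] [Group F] [TopologicalSpace F]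
    (f : E →* F) (hf : Topology.IsEmbedding f) {D : Subgroup E} (hD : DiscreteTopology D) :
    DiscreteTopology (D.map f) := by
  have e : ∀ y : D.map f, ∃ x : D, f x = y := by
    rintro ⟨_, x, hx, rfl⟩
    exact ⟨⟨x, hx⟩, rfl⟩
  choose g hg using e
  refine DiscreteTopology.of_continuous_injective (f := g) ?_ ?_
  · rw [continuous_induced_rng, hf.continuous_iff]
    exact continuous_subtype_val.congr fun y => (hg y).symm
  · intro y z h
    exact Subtype.ext (by rw [← hg y, ← hg z, h])

theorem emb_inl (E F : Type) [Group E] [TopologicalSpace E] [Group F] [TopologicalSpace F] :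
    Topology.IsEmbedding (MonoidHom.inl E F) :=
  Topology.IsEmbedding.of_leftInverse (f := fun x : E × F => x.1) (fun _ => rfl) continuous_fst
    (continuous_id.prodMk continuous_const)

theorem emb_inr (E F : Type) [Group E] [TopologicalSpace E] [Group F] [TopologicalSpace F] :
    Topology.IsEmbedding (MonoidHom.inr E F) :=
  Topology.IsEmbedding.of_leftInverse (f := fun x : E × F => x.2) (fun _ => rfl) continuous_snd
    (continuous_const.prodMk continuous_id)

/-- Groups which contain such a group. -/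
theorem hasPair_map {E F : Type} [Group E] [TopologicalSpace E] [Group F] [TopologicalSpace F]
    (f : E →* F) (hf : Topology.IsEmbedding f) (h : St.HasPair E) : St.HasPair F := by
  obtain ⟨D, hD, hP⟩ := h
  refine ⟨D.map f, disc_map f hf hD, ?_⟩
  refine commPair_map ((f.comp D.subtype).codRestrict (D.map f) fun x => ⟨x, x.2, rfl⟩) ?_ hP
  intro x y h
  exact Subtype.ext (hf.injective (congrArg Subtype.val h))

theorem hasPair_left {E F : Type} [Group E] [TopologicalSpace E] [Group F] [TopologicalSpace F]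
    (h : St.HasPair E) : St.HasPair (E × F) := hasPair_map _ (emb_inl E F) h

theorem hasPair_right {E F : Type} [Group E] [TopologicalSpace E] [Group F] [TopologicalSpace F]
    (h : St.HasPair F) : St.HasPair (E × F) := hasPair_map _ (emb_inr E F) h

end Vale.Agent.P092.L.H859
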