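import Vale.Agent.P092.L.H859.Inst
import Vale.Agent.P092.H714.Schottky

/-!
P092 (helper859): instances of the type theorem: discrete free subgroups of `SL_n(k)`, `n ≥ 2`.
-/

set_option linter.all false

open Matrix

namespace Vale.Agent.P092.L.H859

theorem disc_of_detect {F G X : Type} [Group F] [Group G] [TopologicalSpace G]
    [IsTopologicalGroup G] [TopologicalSpace X] (φ : F →* G) (c : G → X) (hc : Continuous c)
    {U : Set X} (hU : IsOpen U) (h1 : c 1 ∈ U) (h2 : ∀ x, x ≠ 1 → c (φ x) ∉ U) :
    Function.Injective φ ∧ DiscreteTopology φ.range := by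
  refine ⟨(injective_iff_map_eq_one φ).mpr fun x hx => ?_, ?_⟩
  · by_contra hne
    exact h2 x hne (by rw [hx]; exact h1)
  · refine discreteTopology_of_isOpen_singleton_one ?_
    have e : ({1} : Set φ.range) = (fun y : φ.range => c y.1) ⁻¹' U := by
      ext y
      obtain ⟨y, x, rfl⟩ := y
      simp only [Set.mem_singleton_iff, Set.mem_preimage]
      constructor
      · intro h
        have h3 : φ x = 1 := congrArg Subtype.val h
        rw [h3]
        exact h1
      · intro h
        have hx : x = 1 := by
          by_contra hne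
          exact h2 x hne h
        refine Subtype.ext ?_
        change φ x = 1
        rw [hx, map_one]
    rw [e]
    exact hU.preimage (hc.comp continuous_subtype_val)

section sl

variable {k : Type} [NontriviallyNormedField k]

/-- The lower right corner. -/
def blk (m : ℕ) : SpecialLinearGroup (Fin 2) k →* SpecialLinearGroup (Fin (m + 2)) k where
  toFun A := ⟨reindex finSumFinEquiv finSumFinEquiv (fromBlocks 1 0 0 A.1), by
    rw [det_reindex_self, det_fromBlocks_zero₂₁, det_one, one_mul, A.2]⟩
  map_one' := by
    apply Subtype.ext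
    change reindex finSumFinEquiv finSumFinEquiv (fromBlocks 1 0 0 1) = 1
    rw [fromBlocks_one]
    simp
  map_mul' A B := by
    apply Subtype.ext
    change reindex finSumFinEquiv finSumFinEquiv (fromBlocks 1 0 0 (A.1 * B.1)) =
      reindex finSumFinEquiv finSumFinEquiv (fromBlocks 1 0 0 A.1) *
        reindex finSumFinEquiv finSumFinEquiv (fromBlocks 1 0 0 B.1)
    rw [reindex_apply, reindex_apply, reindex_apply, submatrix_mul_equiv, fromBlocks_multiply]
    simp

theorem blk_sub (m : ℕ) (A : SpecialLinearGroup (Fin 2) k) :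
    ((blk (k := k) m A).1.submatrix (Fin.natAdd m) (Fin.natAdd m)) = A.1 := by
  ext i j
  change reindex finSumFinEquiv finSumFinEquiv (fromBlocks 1 0 0 A.1) (Fin.natAdd m i)
    (Fin.natAdd m j) = A.1 i j
  rw [reindex_apply, submatrix_apply, finSumFinEquiv_symm_apply_natAdd,
    finSumFinEquiv_symm_apply_natAdd, fromBlocks_apply₂₂]

theorem discFree_sl (m : ℕ) : DiscFree (SpecialLinearGroup (Fin (m + 2)) k) := by
  obtain ⟨w, hw⟩ := NormedField.exists_lt_norm k 2
  obtain ⟨φ, v, U, hU, hv, -, hx, -⟩ := H714.schottky w hw.le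
  have hc : Continuous fun g : SpecialLinearGroup (Fin (m + 2)) k =>
      (g.1.submatrix (Fin.natAdd m) (Fin.natAdd m)) *ᵥ v := by
    refine Continuous.matrix_mulVec ?_ continuous_const
    exact continuous_subtype_val.matrix_submatrix _ _
  haveI : IsTopologicalGroup (SpecialLinearGroup (Fin (m + 2)) k) :=
    Matrix.SpecialLinearGroup.topologicalGroup
  obtain ⟨h1, h2⟩ := disc_of_detect ((blk (k := k) m).comp φ) _ hc hU
    (by
      rw [← map_one (blk (k := k) m)]
      change (blk (k := k) m 1).1.submatrix (Fin.natAdd m) (Fin.natAdd m) *ᵥ v ∈ U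
      rw [blk_sub]
      change (1 : Matrix (Fin 2) (Fin 2) k) *ᵥ v ∈ U
      rw [one_mulVec]
      exact hv) (fun x hne => by
      change (blk (k := k) m (φ x)).1.submatrix (Fin.natAdd m) (Fin.natAdd m) *ᵥ v ∉ U
      rw [blk_sub]
      exact hx x hne)
  exact ⟨_, h1, h2⟩

end sl

end Vale.Agent.P092.L.H859
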