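import Vale.Agent.P092.L.H859.Inst2
import Vale.Agent.P092.H714.PairFam
import Vale.Agent.P092.H200.Split

/-!
P092 (helper859): instances of the type theorem for the class `Rk`.
-/

set_option linter.all false

open Matrix

namespace Vale.Agent.P092.L.H859

open Vale.Agent.P092.H200
open Vale.Agent.P092.H859 (Pair)
open Vale.Agent.P092.H515.St (Rk LocK form)
open Vale.Agent.P092.H303 (FormGroup hyp Idx)

/-- `E` has a discrete nonamenable subgroup with an infinite abelian subgroup. -/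
def HasNA (E : Type) [Group E] [TopologicalSpace E] : Prop :=
  ∃ K A : Subgroup E, DiscreteTopology K ∧ NoMean K ∧ Vertex A ∧ A ≤ K

theorem hasNA_of_discFree {E : Type} [Group E] [TopologicalSpace E] (h : DiscFree E) :
    HasNA E := by
  obtain ⟨φ, hφ, hd⟩ := h
  have h1 : NoMean (⊤ : Subgroup (FreeGroup (Fin 2))) := noMean_free
  have h2 := h1.map φ hφ
  rw [← MonoidHom.range_eq_map] at h2
  refine ⟨φ.range, Subgroup.zpowers (φ (FreeGroup.of 0)), hd, h2,
    Vale.Agent.P092.H859.vertex_zpowers ?_, ?_⟩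
  · intro k hk h3
    rw [← map_pow] at h3
    exact free_pow_ne_one (0 : Fin 2) k hk ((injective_iff_map_eq_one φ).mp hφ _ h3)
  · rw [Subgroup.zpowers_le]
    exact ⟨_, rfl⟩

theorem hasNA_of_hasPair {E : Type} [Group E] [TopologicalSpace E] (h : St.HasPair E) :
    HasNA E := by
  obtain ⟨D, hD, hP⟩ := h
  obtain ⟨K₀, K₁, A, h0, h1, hc, hA, hAK⟩ := (Vale.Agent.P092.L.H859.commPair_iff.mp hP : Pair D)
  refine ⟨K₁.map D.subtype, A.map D.subtype, disc_map _ Topology.IsEmbedding.subtypeVal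
    inferInstance, h1.map _ D.subtype_injective,
    ⟨?_, ?_⟩, Subgroup.map_mono hAK⟩
  · haveI := hA.1
    exact (A.equivMapOfInjective _ D.subtype_injective).toEquiv.infinite_iff.mp hA.1
  · rintro _ ⟨v, hv, rfl⟩ _ ⟨w, hw, rfl⟩
    rw [← map_mul, ← map_mul, hA.2 v hv w hw]

theorem pair_prod {K M : Type} [Group K] [Group M] (hK : NoMean (⊤ : Subgroup K))
    (hM : NoMean (⊤ : Subgroup M)) {A : Subgroup M} (hA : Vertex A) : St.CommPair (K × M) := by
  have hinl : Function.Injective (MonoidHom.inl K M) := fun x y h => congrArg Prod.fst h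
  have hinr : Function.Injective (MonoidHom.inr K M) := fun x y h => congrArg Prod.snd h
  refine Vale.Agent.P092.L.H859.commPair_iff.mpr ⟨(⊤ : Subgroup K).map (MonoidHom.inl K M),
    (⊤ : Subgroup M).map (MonoidHom.inr K M), A.map (MonoidHom.inr K M), hK.map _ hinl,
    hM.map _ hinr, ?_, ⟨?_, ?_⟩, Subgroup.map_mono le_top⟩
  · rintro _ ⟨v, hv, rfl⟩ _ ⟨w, hw, rfl⟩
    simp
  · exact (A.equivMapOfInjective _ hinr).toEquiv.infinite_iff.mp hA.1
  · rintro _ ⟨v, hv, rfl⟩ _ ⟨w, hw, rfl⟩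
    rw [← map_mul, ← map_mul, hA.2 v hv w hw]

theorem hasPair_prodNA {E F : Type} [Group E] [TopologicalSpace E] [Group F] [TopologicalSpace F]
    (hE : HasNA E) (hF : HasNA F) : St.HasPair (E × F) := by
  obtain ⟨K, -, dK, hK, -, -⟩ := hE
  obtain ⟨M, A, dM, hM, hA, hAM⟩ := hF
  refine ⟨K.prod M, disc_prod dK dM, ?_⟩
  have hA' : Vertex (A.subgroupOf M) := by
    refine ⟨?_, ?_⟩
    · exact (Subgroup.subgroupOfEquivOfLe hAM).symm.toEquiv.infinite_iff.mp hA.1
    · intro a ha b hb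
      exact Subtype.ext (hA.2 _ (Subgroup.mem_subgroupOf.mp ha) _ (Subgroup.mem_subgroupOf.mp hb))
  refine commPair_map ((K.subtype.prodMap M.subtype).codRestrict (K.prod M)
    fun x => ⟨x.1.2, x.2.2⟩) ?_ (pair_prod ((noMean_iff K).mp hK) ((noMean_iff M).mp hM) hA')
  rintro ⟨a, b⟩ ⟨c, d⟩ h
  have h1 := congrArg (fun y : K.prod M => y.1) h
  have h2 : ((a : E), (b : F)) = ((c : E), (d : F)) := h1
  rw [Prod.mk.injEq] at h2
  exact Prod.ext (Subtype.ext h2.1) (Subtype.ext h2.2)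

theorem hasNA_left {E F : Type} [Group E] [TopologicalSpace E] [Group F] [TopologicalSpace F]
    (h : HasNA E) : HasNA (E × F) := by
  obtain ⟨K, A, dK, hK, hA, hAK⟩ := h
  have hinl := (emb_inl E F).injective
  refine ⟨K.map (MonoidHom.inl E F), A.map (MonoidHom.inl E F), disc_map _ (emb_inl E F) dK,
    hK.map _ hinl, ⟨?_, ?_⟩, Subgroup.map_mono hAK⟩
  · exact (A.equivMapOfInjective _ hinl).toEquiv.infinite_iff.mp hA.1
  · rintro _ ⟨v, hv, rfl⟩ _ ⟨w, hw, rfl⟩
    rw [← map_mul, ← map_mul, hA.2 v hv w hw]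

theorem hasNA_right {E F : Type} [Group E] [TopologicalSpace E] [Group F] [TopologicalSpace F]
    (h : HasNA F) : HasNA (E × F) := by
  obtain ⟨K, A, dK, hK, hA, hAK⟩ := h
  have hinr := (emb_inr E F).injective
  refine ⟨K.map (MonoidHom.inr E F), A.map (MonoidHom.inr E F), disc_map _ (emb_inr E F) dK,
    hK.map _ hinr, ⟨?_, ?_⟩, Subgroup.map_mono hAK⟩
  · exact (A.equivMapOfInjective _ hinr).toEquiv.infinite_iff.mp hA.1
  · rintro _ ⟨v, hv, rfl⟩ _ ⟨w, hw, rfl⟩
    rw [← map_mul, ← map_mul, hA.2 v hv w hw]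

/-- `SL_n(k)`, `n ≥ 4`. -/
theorem hasPair_sl (k : Type) [NontriviallyNormedField k] (n : ℕ) (hn : 4 ≤ n) :
    St.HasPair (SpecialLinearGroup (Fin n) k) := H714.disc_sl n hn

/-- Isometry groups of forms of Witt index at least two. -/
theorem hasPair_isom {k : Type} [NontriviallyNormedField k] {σ : k →+* k}
    (hσ : ∀ x, σ (σ x) = x) (hn : ∀ x, ‖σ x‖ = ‖x‖) {ε : k} (hε : ε * ε = 1) {ι : Type}
    [Fintype ι] [DecidableEq ι] (J₀ : Matrix ι ι k) (q : ℕ) (hq : 2 ≤ q)
    (G : Subgroup (SpecialLinearGroup ((Fin q ⊕ Fin q) ⊕ ι) k))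
    (hG : ∀ g, g ∈ G ↔ g.1 * form q ε J₀ * (g.1.map σ).transpose = form q ε J₀) :
    St.HasPair G := by
  obtain rfl : G = FormGroup σ (hyp q ε J₀) := by
    ext g
    rw [hG]
    rfl
  exact H714.disc_isom hσ hn hε J₀ q hq

theorem hasNA_rk {G : Type} [hG : Group G] [hT : TopologicalSpace G] {r : ℕ}
    (h : Rk (fun q => q ≠ 1) G r) (hr : 1 ≤ r) : HasNA G := by
  induction h with
  | sl k hk n =>
    obtain ⟨m, rfl⟩ := Nat.exists_eq_add_of_le' hr
    exact hasNA_of_discFree (discFree_sl m)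
  | isom k hk σ hσ hn ε hε hσε ι J₀ hJ q hq G hG =>
    exact hasNA_of_hasPair (hasPair_isom hσ hn hε J₀ q (by omega) G hG)
  | prod G H r s _ _ h1 h2 =>
    rcases Nat.eq_zero_or_pos r with rfl | h
    · exact hasNA_right (h2 (by omega))
    · exact hasNA_left (h1 h)

/-- Products of two noncompact groups of the class. -/
theorem hasPair_rk {G H : Type} [Group G] [TopologicalSpace G] [Group H] [TopologicalSpace H]
    {r s : ℕ} (hG : Rk (fun q => q ≠ 1) G r) (hH : Rk (fun q => q ≠ 1) H s) (hr : 1 ≤ r)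
    (hs : 1 ≤ s) : St.HasPair (G × H) :=
  hasPair_prodNA (hasNA_rk hG hr) (hasNA_rk hH hs)

end Vale.Agent.P092.L.H859
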