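import Mathlib
import Vale.Agent.P092.H655.Stmt

/-!
P092 (helper859): definitions of the final statement of the type theorem.
-/

open MeasureTheory

namespace Vale.Agent.P092.L.H859.Ty

open Vale.Agent.P092.H103.St Vale.Agent.P092.H655

/-- `m` is a finitely additive probability on the subsets of `Λ`, invariant under right
multiplication by the elements of `K`. -/
def IsMean {Λ : Type} [Group Λ] (K : Subgroup Λ) (m : Set Λ → ℝ) : Prop :=
  (∀ S, 0 ≤ m S) ∧ m Set.univ = 1 ∧ (∀ S T, Disjoint S T → m (S ∪ T) = m S + m T) ∧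
    ∀ S, ∀ v ∈ K, m {x | x * v ∈ S} = m S

/-- `Λ` has two commuting nonamenable subgroups, one of which has an infinite abelian subgroup. -/
def CommPair (Λ : Type) [Group Λ] : Prop :=
  ∃ K₀ K₁ A : Subgroup Λ, (¬ ∃ m, IsMean K₀ m) ∧ (¬ ∃ m, IsMean K₁ m) ∧
    (∀ v ∈ K₀, ∀ w ∈ K₁, v * w = w * v) ∧ A ≤ K₁ ∧ Infinite A ∧ ∀ a ∈ A, ∀ b ∈ A, a * b = b * a

/-- The topological group `E` has a discrete subgroup with such a pair. -/
def HasPair (E : Type) [Group E] [TopologicalSpace E] : Prop :=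
  ∃ D : Subgroup E, DiscreteTopology D ∧ CommPair D

/-- `Λ` is a lattice in the topological group `E`: it is discrete and `E/Λ` carries a nonzero finite
invariant Borel measure. -/
structure IsLattice {E : Type} [Group E] [TopologicalSpace E] (Λ : Subgroup E) : Prop where
  disc : DiscreteTopology Λ
  covol : ∃ ν : @Measure (E ⧸ Λ) (borel (E ⧸ Λ)), ν ≠ 0 ∧ ν Set.univ < ⊤ ∧
    ∀ g : E, ∀ s : Set (E ⧸ Λ), MeasurableSet[borel (E ⧸ Λ)] s →
      ν ((fun x => g • x) ⁻¹' s) = ν s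

/-- All nontrivial conjugacy classes are infinite. -/
def Icc (Γ : Type) [Group Γ] : Prop := ∀ g : Γ, g ≠ 1 → Set.Infinite {y : Γ | ∃ h, y = h * g * h⁻¹}

/-- `L(Λ)` has no trace preserving embedding into an amplification of `L(Γ)`; if `Γ` or `Λ` is ICC,
`L(Λ)` is not isomorphic to a corner of a matrix algebra over `L(Γ)`; if `Λ` is ICC, `L(Γ)` is not
isomorphic to a corner of a matrix algebra over `L(Λ)`. -/
def NoEmb (Γ Λ : Type) [Group Γ] [Group Λ] : Prop := ∀ k : ℕ,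
  (∀ U : Λ → MOp k Γ, ¬ TraceRep Λ Γ k U) ∧
  (Icc Γ ∨ Icc Λ → ∀ p : MOp k Γ, IsProj p → IsEmpty (CornerIso Λ Γ k p)) ∧
  (Icc Λ → ∀ p : MOp k Λ, IsProj p → IsEmpty (CornerIso Γ Λ k p))

/-- The Gram matrix of the form with `q` hyperbolic planes (of sign `ε`) and the form `J₀`. -/
def gram {k : Type} [Field k] {ι : Type} (q : ℕ) (ε : k) (J₀ : Matrix ι ι k) :
    Matrix ((Fin q ⊕ Fin q) ⊕ ι) ((Fin q ⊕ Fin q) ⊕ ι) k :=
  Matrix.fromBlocks (Matrix.fromBlocks 0 1 (ε • (1 : Matrix (Fin q) (Fin q) k)) 0) 0 0 J₀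

/-- The smallest class of topological groups which contains `SL_n(k)`, `n ≥ 4`, the special isometry
groups of `(ε, σ)`-hermitian forms with `q ≥ 2` hyperbolic planes, the products
`SL_m(k) × SL_n(k')`, `m, n ≥ 2`, and the products of its members with any topological group. -/
inductive FamE : (E : Type) → [Group E] → [TopologicalSpace E] → Prop
  | sl (k : Type) [NontriviallyNormedField k] (n : ℕ) (hn : 4 ≤ n) :
      FamE (Matrix.SpecialLinearGroup (Fin n) k)
  | isom (k : Type) [NontriviallyNormedField k] (σ : k →+* k) (hσ : ∀ x, σ (σ x) = x)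
      (hn : ∀ x, ‖σ x‖ = ‖x‖) (ε : k) (hε : ε * ε = 1) (ι : Type) [Fintype ι] [DecidableEq ι]
      (J₀ : Matrix ι ι k) (q : ℕ) (hq : 2 ≤ q)
      (G : Subgroup (Matrix.SpecialLinearGroup ((Fin q ⊕ Fin q) ⊕ ι) k))
      (hG : ∀ g, g ∈ G ↔ g.1 * gram q ε J₀ * (g.1.map σ).transpose = gram q ε J₀) : FamE G
  | two (k k' : Type) [NontriviallyNormedField k] [NontriviallyNormedField k'] (m n : ℕ)
      (hm : 2 ≤ m) (hn : 2 ≤ n) :
      FamE (Matrix.SpecialLinearGroup (Fin m) k × Matrix.SpecialLinearGroup (Fin n) k')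
  | left (E F : Type) [Group E] [TopologicalSpace E] [Group F] [TopologicalSpace F]
      (hE : FamE E) : FamE (E × F)
  | right (E F : Type) [Group E] [TopologicalSpace E] [Group F] [TopologicalSpace F]
      (hF : FamE F) : FamE (E × F)

/-- Finite index subgroups of `SL_n(ℤ)`, `PSL_n(ℤ)`, `n ≥ 4`, of `Sp_2n(ℤ)` and its quotient by the
centre, `n ≥ 2`, and groups containing `F₂ × F₂`. -/
inductive FamD : (Λ : Type) → [Group Λ] → Prop
  | sl (n : ℕ) (hn : 4 ≤ n) (Λ : Subgroup (Matrix.SpecialLinearGroup (Fin n) ℤ))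
      (h : Λ.FiniteIndex) : FamD Λ
  | psl (n : ℕ) (hn : 4 ≤ n) (Λ : Subgroup (Matrix.ProjectiveSpecialLinearGroup (Fin n) ℤ))
      (h : Λ.FiniteIndex) : FamD Λ
  | sp (n : ℕ) (hn : 2 ≤ n) (Λ : Subgroup (Matrix.symplecticGroup (Fin n) ℤ))
      (h : Λ.FiniteIndex) : FamD Λ
  | psp (n : ℕ) (hn : 2 ≤ n) (Λ : Subgroup (Matrix.symplecticGroup (Fin n) ℤ ⧸
      Subgroup.center (Matrix.symplecticGroup (Fin n) ℤ))) (h : Λ.FiniteIndex) : FamD Λ
  | free (Λ : Type) [Group Λ] (φ : FreeGroup (Fin 2) × FreeGroup (Fin 2) →* Λ)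
      (hφ : Function.Injective φ) : FamD Λ

end Vale.Agent.P092.L.H859.Ty
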