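import Vale.Agent.P092.L.H859.TypeN
import Vale.Agent.P092.L.H859.Inst3
import Vale.Agent.P092.L.H859.StmtF

/-!
P092 (helper859): the final statement of the type theorem.
-/

set_option linter.all false

namespace Vale.Agent.P092.L.H859

open Vale.Agent.P092.H200
open Vale.Agent.P092.H655 (SLR)
open Vale.Agent.P092.L.H859.Ty (HasPair FamE FamD IsLattice gram)

theorem Ty.noEmb_iff {Γ Λ : Type} [Group Γ] [Group Λ] :
    Ty.NoEmb Γ Λ ↔ H515.St.NoEmb Γ Λ := Iff.rfl

theorem Ty.lat {E : Type} [Group E] [TopologicalSpace E] {Λ : Subgroup E} (h : IsLattice Λ) :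
    H515.St.IsLattice Λ := ⟨h.disc, h.covol⟩

theorem hasPair_fam {E : Type} [hG : Group E] [hT : TopologicalSpace E] (h : FamE E) :
    HasPair E := by
  induction h with
  | sl k n hn => exact hasPair_sl k n hn
  | isom k σ hσ hn ε hε ι J₀ q hq G hG => exact hasPair_isom hσ hn hε J₀ q hq G hG
  | two k k' m n hm hn =>
    obtain ⟨m, rfl⟩ := Nat.exists_eq_add_of_le' hm
    obtain ⟨n, rfl⟩ := Nat.exists_eq_add_of_le' hn
    exact hasPair_prod (discFree_sl m) (discFree_sl n)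
  | left E F hE h => exact hasPair_left h
  | right E F hF h => exact hasPair_right h

theorem commPair_fam {Λ : Type} [hG : Group Λ] (h : FamD Λ) : Ty.CommPair Λ := by
  obtain ⟨h1, h2, h3, h4, h5⟩ :=
    split_families (fun Λ _ => Ty.CommPair Λ) (fun Λ _ h => commPair_of_split h)
  induction h with
  | sl n hn Λ h => exact h1 n hn Λ h
  | psl n hn Λ h => exact h2 n hn Λ h
  | sp n hn Λ h => exact h3 n hn Λ h
  | psp n hn Λ h => exact h4 n hn Λ h
  | free Λ φ hφ => exact h5 Λ φ hφ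

theorem type_fin :
    (∀ (Γ₀ : Subgroup (SLR 3)), DiscreteTopology Γ₀ → ∀ (Γ : Type) [Group Γ] (i : Γ₀ →* Γ),
      Function.Injective i → i.range.FiniteIndex →
      (∀ (E : Type) [Group E] [TopologicalSpace E] [IsTopologicalGroup E]
        [LocallyCompactSpace E] [SecondCountableTopology E] [T2Space E], HasPair E →
        ∀ Λ₀ : Subgroup E, IsLattice Λ₀ → ∀ (Λ : Type) [Group Λ] (j : Λ₀ →* Λ),
          Function.Injective j → Ty.NoEmb Γ Λ) ∧
      (∀ (Λ : Type) [Group Λ], Ty.CommPair Λ → Ty.NoEmb Γ Λ)) ∧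
    (∀ Γ : Subgroup (SLR 3), IsLattice Γ → Ty.Icc Γ) ∧
    (∀ (E : Type) [Group E] [TopologicalSpace E], FamE E → HasPair E) ∧
    (∀ (Λ : Type) [Group Λ], FamD Λ → Ty.CommPair Λ) :=
  ⟨fun Γ₀ hd Γ _ i hi hfi => ⟨fun E _ _ _ _ _ _ hE Λ₀ hΛ Λ _ j hj =>
    noEmb_type hE (Ty.lat hΛ) hd i j hi hfi hj, fun Λ _ h => noEmb_disc hd i hi hfi h⟩,
    fun Γ h => icc_of_isLat ⟨h.disc, h.covol⟩, fun E _ _ h => hasPair_fam h,
    fun Λ _ h => commPair_fam h⟩

end Vale.Agent.P092.L.H859
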