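import Vale.Agent.P092.H859.TMe
import Vale.Agent.P092.L.H859.Pair
import Vale.Agent.P092.L.H859.StmtE
import Vale.Agent.P092.H515.RkFin

/-!
P092 (helper859): the type theorem: overgroups of lattices of groups which have a discrete subgroup
with a commuting pair, against groups which contain a discrete subgroup of `SL_3(ℝ)` with finite
index.
-/

set_option linter.all false

open MeasureTheory

namespace Vale.Agent.P092.L.H859

open Vale.Agent.P092.H160 Vale.Agent.P092.H200 Vale.Agent.P092.L.H553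
open Vale.Agent.P092.H432 (ARep mp ep exists_efam)
open Vale.Agent.P092.H859 (Pair pair_of_split)
open Vale.Agent.P092.H655 (SLR TraceRep)
open Vale.Agent.P092.H377 (arep_finiteIndex arep_comp)

theorem St.commPair_iff {Λ : Type} [Group Λ] : St.CommPair Λ ↔ Pair Λ :=
  L.H859.commPair_iff

theorem no_arep_lat {E : Type} [Group E] [TopologicalSpace E] [IsTopologicalGroup E]
    [LocallyCompactSpace E] [SecondCountableTopology E] [T2Space E] {D Λ₀ : Subgroup E}
    (hD : DiscreteTopology D) (hP : Pair D) (hΛ : H515.St.IsLattice Λ₀) {Γ₀ : Subgroup (SLR 3)}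
    (hd : DiscreteTopology Γ₀) {ι : Type} [Fintype ι] {t : ℝ}
    {R : Λ₀ → (Ell2 (Γ₀ × ι) →L[ℂ] Ell2 (Γ₀ × ι))} : ¬ ARep t R := by
  intro hR
  haveI : Emb Γ₀ := embDisc Γ₀
  haveI := hΛ.disc
  letI : MeasurableSpace (E ⧸ Λ₀) := borel _
  haveI : BorelSpace (E ⧸ Λ₀) := ⟨rfl⟩
  obtain ⟨ν, hν0, hνf, hν⟩ := hΛ.covol
  have hν1 : ν Set.univ ≠ 0 := by
    intro h
    exact hν0 (Measure.measure_univ_eq_zero.mp h)
  haveI hPr : IsProbabilityMeasure ((ν Set.univ)⁻¹ • ν) := by
    constructor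
    rw [Measure.smul_apply, smul_eq_mul]
    exact ENNReal.inv_mul_cancel hν1 hνf.ne
  haveI : Countable D := H790.countable_of_discrete D
  haveI : Countable Λ₀ := H790.countable_of_discrete Λ₀
  obtain ⟨m⟩ := H790.exists_meData D Λ₀ ((ν Set.univ)⁻¹ • ν) (fun g => by
    have hgm : Measurable (fun x : E ⧸ Λ₀ => g • x) := (continuous_const_smul g).measurable
    ext s hs
    rw [Measure.map_apply hgm hs, Measure.smul_apply, Measure.smul_apply, hν g s hs])
  exact Vale.Agent.P092.H859.no_arep_me m hP hR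

/-- **The type theorem.** -/
theorem noEmb_type {E : Type} [Group E] [TopologicalSpace E] [IsTopologicalGroup E]
    [LocallyCompactSpace E] [SecondCountableTopology E] [T2Space E] (hE : St.HasPair E)
    {Λ₀ : Subgroup E} (hΛ : H515.St.IsLattice Λ₀) {Γ₀ : Subgroup (SLR 3)}
    (hd : DiscreteTopology Γ₀) {Γ Λ : Type} [Group Γ] [Group Λ] (i : Γ₀ →* Γ) (j : Λ₀ →* Λ)
    (hi : Function.Injective i) (hfi : i.range.FiniteIndex) (hj : Function.Injective j) :
    H515.St.NoEmb Γ Λ := by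
  obtain ⟨D, hD, hP⟩ := hE
  refine H515.noEmb_of fun ι _ t R hR => ?_
  obtain ⟨κ, _, t₁, R₁, h2⟩ := arep_finiteIndex i (arep_comp hR j hj) hi
  exact no_arep_lat hD (St.commPair_iff.mp hP) hΛ hd h2

/-- The case of discrete groups. -/
theorem noEmb_disc {Γ₀ : Subgroup (SLR 3)} (hd : DiscreteTopology Γ₀) {Γ Λ : Type} [Group Γ]
    [Group Λ] (i : Γ₀ →* Γ) (hi : Function.Injective i) (hfi : i.range.FiniteIndex)
    (hΛ : St.CommPair Λ) : H515.St.NoEmb Γ Λ :=
  H515.noEmb_of fun ι _ t R => no_arep_fi i hi hfi (St.commPair_iff.mp hΛ)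

end Vale.Agent.P092.L.H859
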